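import Mathlib.Algebra.BigOperators.Ring.Finset
import Mathlib.Data.ZMod.Basic
import Mathlib.Tactic

/-!
The descent: representations of integers as sums of distinct divisors of `W`.
-/

namespace Vale.Agent.P012

open Finset

/-- `n` is a sum of at most `t` distinct divisors of `W`. -/
def Rep (W n t : ℕ) : Prop :=
  ∃ D : Finset ℕ, (∀ d ∈ D, d ∣ W) ∧ ∑ d ∈ D, d = n ∧ D.card ≤ t

/-- Every `n < x` is a sum of at most `t` distinct divisors of `W`. -/
def Chain (W x t : ℕ) : Prop := ∀ n, n < x → Rep W n t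

theorem Rep.mono {W W' n t t' : ℕ} (h : Rep W n t) (hW : W ∣ W') (ht : t ≤ t') : Rep W' n t' := by
  obtain ⟨D, h1, h2, h3⟩ := h
  exact ⟨D, fun d hd => (h1 d hd).trans hW, h2, h3.trans ht⟩

theorem Chain.mono {W W' x x' t t' : ℕ} (h : Chain W x t) (hW : W ∣ W') (hx : x' ≤ x)
    (ht : t ≤ t') : Chain W' x' t' :=
  fun n hn => (h n (lt_of_lt_of_le hn hx)).mono hW ht

/-- Binary expansion. -/
theorem chain_base (e : ℕ) : Chain (2 ^ e) (2 ^ (e + 1)) (e + 1) := by
  induction e with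
  | zero =>
    intro n hn
    interval_cases n
    · exact ⟨∅, by simp, by simp, by simp⟩
    · exact ⟨{1}, by simp, by simp, by simp⟩
  | succ e ih =>
    intro n hn
    by_cases hlt : n < 2 ^ (e + 1)
    · exact (ih n hlt).mono (pow_dvd_pow 2 (by omega)) (by omega)
    · push Not at hlt
      have hn' : n - 2 ^ (e + 1) < 2 ^ (e + 1) := by
        have : 2 ^ (e + 1 + 1) = 2 * 2 ^ (e + 1) := by ring
        omega
      obtain ⟨D, h1, h2, h3⟩ := ih _ hn'
      have hnot : 2 ^ (e + 1) ∉ D := by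
        intro hmem
        have := h1 _ hmem
        have h4 : 2 ^ (e + 1) ≤ 2 ^ e := Nat.le_of_dvd (by positivity) this
        have h5 : 2 ^ e < 2 ^ (e + 1) := Nat.pow_lt_pow_right (by norm_num) (by omega)
        omega
      refine ⟨insert (2 ^ (e + 1)) D, ?_, ?_, ?_⟩
      · intro d hd
        rcases mem_insert.mp hd with rfl | hd
        · exact dvd_rfl
        · exact (h1 d hd).trans (pow_dvd_pow 2 (by omega))
      · rw [sum_insert hnot, h2]; omega
      · rw [card_insert_of_notMem hnot]; omega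

/-- One descent step: from a chain for `V`, `x'` get a chain for `V * q`, `x' * q`, using two
extra terms, given a covering family of residues by divisors of `W₀` not divisible by `q`. -/
theorem chain_step {V W₀ x x' t q : ℕ} (hq : q.Prime) (hW₀ : W₀ ∣ V) (hqW₀ : ¬ q ∣ W₀)
    (hx : x ≤ x') (h : Chain V x' t)
    (hcov : ∀ c : ℕ, ¬ q ∣ c → ∃ d₁ d₂ : ℕ, d₁ ≠ d₂ ∧ d₁ ∣ W₀ ∧ d₂ ∣ W₀ ∧ d₁ + d₂ ≤ x ∧
      ((d₁ + d₂ : ℕ) : ZMod q) = (c : ZMod q)) :
    Chain (V * q) (x' * q) (t + 2) := by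
  intro n hn
  by_cases hlt : n < x'
  · exact (h n hlt).mono (dvd_mul_right _ _) (by omega)
  push Not at hlt
  have hqpos : 0 < q := hq.pos
  by_cases hqn : q ∣ n
  · obtain ⟨m, rfl⟩ := hqn
    have hm : m < x' := by
      by_contra hcon
      push Not at hcon
      have : x' * q ≤ m * q := Nat.mul_le_mul_right _ hcon
      nlinarith
    obtain ⟨D, h1, h2, h3⟩ := h m hm
    refine ⟨D.image (fun d => q * d), ?_, ?_, ?_⟩
    · intro d hd
      obtain ⟨d', hd', rfl⟩ := mem_image.mp hd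
      rw [mul_comm V q]
      exact mul_dvd_mul_left q (h1 d' hd')
    · rw [sum_image (fun a _ b _ hab => Nat.eq_of_mul_eq_mul_left hqpos hab), ← mul_sum, h2]
    · exact card_image_le.trans (by omega)
  · obtain ⟨d₁, d₂, hne, hd₁, hd₂, hsum, hcong⟩ := hcov n hqn
    have hge : d₁ + d₂ ≤ n := by omega
    have hdvd : q ∣ n - (d₁ + d₂) := by
      rw [← ZMod.natCast_eq_zero_iff]
      rw [Nat.cast_sub hge, hcong, sub_self]
    obtain ⟨m, hm⟩ := hdvd
    have hm' : m < x' := by
      by_contra hcon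
      push Not at hcon
      have : x' * q ≤ m * q := Nat.mul_le_mul_right _ hcon
      have h5 : n - (d₁ + d₂) ≤ n := Nat.sub_le _ _
      have h6 : n = d₁ + d₂ + q * m := by omega
      have h7 : d₁ + d₂ + q * m < x' * q := by omega
      nlinarith
    obtain ⟨D, h1, h2, h3⟩ := h m hm'
    have hnd : ∀ d, d ∣ W₀ → ¬ q ∣ d := fun d hd hqd => hqW₀ (hqd.trans hd)
    set E := D.image (fun d => q * d) with hE
    have hEq : ∀ e ∈ E, q ∣ e := by
      intro e he
      obtain ⟨d', _, rfl⟩ := mem_image.mp he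
      exact dvd_mul_right _ _
    have hd₁E : d₁ ∉ E := fun hmem => hnd d₁ hd₁ (hEq _ hmem)
    have hd₂E : d₂ ∉ E := fun hmem => hnd d₂ hd₂ (hEq _ hmem)
    refine ⟨insert d₁ (insert d₂ E), ?_, ?_, ?_⟩
    · intro d hd
      rcases mem_insert.mp hd with rfl | hd
      · exact (hd₁.trans hW₀).trans (dvd_mul_right _ _)
      rcases mem_insert.mp hd with rfl | hd
      · exact (hd₂.trans hW₀).trans (dvd_mul_right _ _)
      obtain ⟨d', hd', rfl⟩ := mem_image.mp hd
      rw [mul_comm V q]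
      exact mul_dvd_mul_left q (h1 d' hd')
    · have hnot : d₁ ∉ insert d₂ E := by
        intro hmem
        rcases mem_insert.mp hmem with h8 | h8
        · exact hne h8
        · exact hd₁E h8
      rw [sum_insert hnot, sum_insert hd₂E, hE,
        sum_image (fun a _ b _ hab => Nat.eq_of_mul_eq_mul_left hqpos hab), ← mul_sum, h2]
      omega
    · have h8 : E.card ≤ t := card_image_le.trans h3
      have h9 := card_insert_le d₁ (insert d₂ E)
      have h10 := card_insert_le d₂ E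
      omega

/-- Iterating the descent step `k` times. -/
theorem chain_iter {V W₀ x x' t q : ℕ} (hq : q.Prime) (hW₀ : W₀ ∣ V) (hqW₀ : ¬ q ∣ W₀)
    (hx : x ≤ x') (h : Chain V x' t)
    (hcov : ∀ c : ℕ, ¬ q ∣ c → ∃ d₁ d₂ : ℕ, d₁ ≠ d₂ ∧ d₁ ∣ W₀ ∧ d₂ ∣ W₀ ∧ d₁ + d₂ ≤ x ∧
      ((d₁ + d₂ : ℕ) : ZMod q) = (c : ZMod q)) (k : ℕ) :
    Chain (V * q ^ k) (x' * q ^ k) (t + 2 * k) := by
  induction k with
  | zero => simpa using h
  | succ k ih =>
    have hstep := chain_step (V := V * q ^ k) (x' := x' * q ^ k) hq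
      (hW₀.trans (dvd_mul_right _ _)) hqW₀
      (hx.trans (Nat.le_mul_of_pos_right _ (pow_pos hq.pos k))) ih hcov
    have e1 : V * q ^ k * q = V * q ^ (k + 1) := by ring
    have e2 : x' * q ^ k * q = x' * q ^ (k + 1) := by ring
    rw [e1, e2] at hstep
    exact hstep

end Vale.Agent.P012
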