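import Mathlib.Data.ZMod.Basic
import Mathlib.Algebra.BigOperators.Ring.Finset
import Mathlib.Combinatorics.Enumerative.DoubleCounting
import Mathlib.Algebra.Field.ZMod
import Mathlib.Tactic

/-!
Dot product covering in the field with `p` elements: if `𝒜, ℬ ⊆ F²` with `|𝒜||ℬ| > p³`,
the second set having nonzero first coordinates, then every nonzero `c` is a dot product.
-/

namespace Vale.Agent.P012

open Finset

variable {p : ℕ} [Fact p.Prime]

/-- Number of `a ∈ F²` with `a · b = c`, when `b.1 ≠ 0`. -/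
theorem card_line (b : ZMod p × ZMod p) (hb : b.1 ≠ 0) (c : ZMod p) :
    ((univ : Finset (ZMod p × ZMod p)).filter (fun a => a.1 * b.1 + a.2 * b.2 = c)).card = p := by
  classical
  have h : ((univ : Finset (ZMod p × ZMod p)).filter (fun a => a.1 * b.1 + a.2 * b.2 = c))
      = (univ : Finset (ZMod p)).image (fun t => ((c - t * b.2) / b.1, t)) := by
    ext a
    simp only [mem_filter, mem_univ, true_and, mem_image]
    constructor
    · intro h
      refine ⟨a.2, ?_⟩
      ext
      · simp only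
        field_simp
        rw [← h]; ring
      · rfl
    · rintro ⟨t, rfl⟩
      simp only
      field_simp
      ring
  rw [h, card_image_of_injective]
  · simp [ZMod.card]
  · intro s t hst
    simpa using (Prod.ext_iff.mp hst).2

/-- Two distinct lines with the same right side meet in at most one point. -/
theorem card_two_lines (b b' : ZMod p × ZMod p) (hne : b ≠ b') (c : ZMod p) (hc : c ≠ 0) :
    ((univ : Finset (ZMod p × ZMod p)).filter
      (fun a => a.1 * b.1 + a.2 * b.2 = c ∧ a.1 * b'.1 + a.2 * b'.2 = c)).card ≤ 1 := by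
  classical
  rw [card_le_one]
  intro a ha e he
  simp only [mem_filter, mem_univ, true_and] at ha he
  obtain ⟨h1, h2⟩ := ha
  obtain ⟨h3, h4⟩ := he
  set D := b.1 * b'.2 - b.2 * b'.1 with hD
  have key1 : a.1 * D = c * (b'.2 - b.2) := by
    rw [hD]; linear_combination b'.2 * h1 - b.2 * h2
  have key2 : a.2 * D = c * (b.1 - b'.1) := by
    rw [hD]; linear_combination b.1 * h2 - b'.1 * h1
  have key3 : e.1 * D = c * (b'.2 - b.2) := by
    rw [hD]; linear_combination b'.2 * h3 - b.2 * h4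
  have key4 : e.2 * D = c * (b.1 - b'.1) := by
    rw [hD]; linear_combination b.1 * h4 - b'.1 * h3
  by_cases hD0 : D = 0
  · exfalso
    apply hne
    rw [hD0, mul_zero] at key1 key2
    have e1 : b'.2 - b.2 = 0 := (mul_eq_zero.mp key1.symm).resolve_left hc
    have e2 : b.1 - b'.1 = 0 := (mul_eq_zero.mp key2.symm).resolve_left hc
    ext
    · exact sub_eq_zero.mp e2
    · exact (sub_eq_zero.mp e1).symm
  · ext
    · exact mul_right_cancel₀ hD0 (key1.trans key3.symm)
    · exact mul_right_cancel₀ hD0 (key2.trans key4.symm)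

/-- Dot product covering. -/
theorem dot_cover (𝒜 ℬ : Finset (ZMod p × ZMod p)) (hℬ : ∀ b ∈ ℬ, b.1 ≠ 0) (c : ZMod p)
    (hc : c ≠ 0) (h : p ^ 3 < 𝒜.card * ℬ.card) :
    ∃ a ∈ 𝒜, ∃ b ∈ ℬ, a.1 * b.1 + a.2 * b.2 = c := by
  classical
  by_contra hno
  push_neg at hno
  -- `R a` counts `b ∈ ℬ` with `a · b = c`
  set R : ZMod p × ZMod p → ℕ := fun a => (ℬ.filter (fun b => a.1 * b.1 + a.2 * b.2 = c)).card
    with hR
  have hRzero : ∀ a ∈ 𝒜, R a = 0 := by
    intro a ha
    simp only [hR, card_eq_zero, filter_eq_empty_iff]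
    intro b hb
    exact hno a ha b hb
  have hsum : ∑ a, R a = ℬ.card * p := by
    have : ∑ a, R a = ∑ b ∈ ℬ,
        ((univ : Finset (ZMod p × ZMod p)).filter (fun a => a.1 * b.1 + a.2 * b.2 = c)).card := by
      simp only [hR]
      simp only [card_filter]
      rw [sum_comm]
    rw [this, sum_congr rfl (fun b hb => card_line b (hℬ b hb) c)]
    simp
  have hsq : ∑ a, (R a) ^ 2 ≤ ℬ.card ^ 2 + ℬ.card * p := by
    have h1 : ∀ a, (R a) ^ 2 = ∑ x ∈ ℬ ×ˢ ℬ,
        if (a.1 * x.1.1 + a.2 * x.1.2 = c ∧ a.1 * x.2.1 + a.2 * x.2.2 = c) then 1 else 0 := by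
      intro a
      simp only [hR, sq, ← card_product, ← card_filter]
      congr 1
      ext x
      simp only [mem_product, mem_filter]
      tauto
    have h2 : ∑ a, (R a) ^ 2 = ∑ x ∈ ℬ ×ˢ ℬ,
        ((univ : Finset (ZMod p × ZMod p)).filter
          (fun a => a.1 * x.1.1 + a.2 * x.1.2 = c ∧ a.1 * x.2.1 + a.2 * x.2.2 = c)).card := by
      simp only [h1, card_filter]
      rw [sum_comm]
    rw [h2]
    have h3 : ∀ x ∈ ℬ ×ˢ ℬ,
        ((univ : Finset (ZMod p × ZMod p)).filter
          (fun a => a.1 * x.1.1 + a.2 * x.1.2 = c ∧ a.1 * x.2.1 + a.2 * x.2.2 = c)).card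
        ≤ (if x.1 = x.2 then p else 0) + 1 := by
      intro x hx
      by_cases hxe : x.1 = x.2
      · rw [if_pos hxe, hxe]
        have hb : x.2.1 ≠ 0 := hℬ x.2 (mem_product.mp hx).2
        simp only [and_self]
        rw [card_line x.2 hb c]
        omega
      · rw [if_neg hxe]
        simpa using card_two_lines x.1 x.2 hxe c hc
    refine (sum_le_sum h3).trans ?_
    rw [sum_add_distrib]
    have h4 : ∑ x ∈ ℬ ×ˢ ℬ, (if x.1 = x.2 then p else 0) = ℬ.card * p := by
      rw [sum_product]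
      simp only [sum_ite_eq, ite_mul]
      rw [← sum_const_nat (m := p) (s := ℬ) (f := fun _ => p) (fun _ _ => rfl)]
      apply sum_congr rfl
      intro b hb
      simp [hb]
    rw [h4]
    simp only [sum_const, card_product, smul_eq_mul, mul_one]
    nlinarith
  -- the variance computation, in ℤ
  have hcard : ((univ : Finset (ZMod p × ZMod p)).card : ℤ) = (p : ℤ) ^ 2 := by
    simp [ZMod.card, sq]
  set B : ℤ := (ℬ.card : ℤ) with hB
  set P : ℤ := (p : ℤ) with hP
  have hsum' : ∑ a, (R a : ℤ) = B * P := by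
    have := congrArg (Nat.cast (R := ℤ)) hsum
    push_cast at this
    exact this
  have hsq' : ∑ a, (R a : ℤ) ^ 2 ≤ B ^ 2 + B * P := by
    have := (Nat.cast_le (α := ℤ)).mpr hsq
    push_cast at this
    exact this
  have hvar : ∑ a, (P * (R a : ℤ) - B) ^ 2 ≤ P ^ 3 * B := by
    have e : ∑ a, (P * (R a : ℤ) - B) ^ 2
        = P ^ 2 * ∑ a, (R a : ℤ) ^ 2 - 2 * P * B * ∑ a, (R a : ℤ)
          + ((univ : Finset (ZMod p × ZMod p)).card : ℤ) * B ^ 2 := by
      have e1 : ∀ a, (P * (R a : ℤ) - B) ^ 2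
          = P ^ 2 * (R a : ℤ) ^ 2 - 2 * P * B * (R a : ℤ) + B ^ 2 := by
        intro a; ring
      simp only [e1]
      rw [sum_add_distrib, sum_sub_distrib, mul_sum, mul_sum]
      simp [sum_const]
    rw [e, hsum', hcard]
    have hP0 : 0 ≤ P ^ 2 := by positivity
    nlinarith [mul_le_mul_of_nonneg_left hsq' hP0]
  have hlow : (𝒜.card : ℤ) * B ^ 2 ≤ ∑ a, (P * (R a : ℤ) - B) ^ 2 := by
    calc (𝒜.card : ℤ) * B ^ 2 = ∑ a ∈ 𝒜, (P * (R a : ℤ) - B) ^ 2 := by
          rw [sum_congr rfl (g := fun _ => B ^ 2)]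
          · simp
          · intro a ha
            simp [hRzero a ha]
      _ ≤ ∑ a, (P * (R a : ℤ) - B) ^ 2 :=
          sum_le_sum_of_subset_of_nonneg (subset_univ _) (fun _ _ _ => by positivity)
  have hfin : (𝒜.card : ℤ) * B ^ 2 ≤ P ^ 3 * B := hlow.trans hvar
  have hBpos : 0 < B := by
    rw [hB]
    have : 0 < ℬ.card := by
      rcases Nat.eq_zero_or_pos ℬ.card with h0 | h0
      · rw [h0, mul_zero] at h
        exact absurd h (Nat.not_lt_zero _)
      · exact h0
    exact_mod_cast this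
  have h5 : (𝒜.card : ℤ) * B ≤ P ^ 3 := by
    have : (𝒜.card : ℤ) * B * B ≤ P ^ 3 * B := by
      calc (𝒜.card : ℤ) * B * B = (𝒜.card : ℤ) * B ^ 2 := by ring
        _ ≤ _ := hfin
    exact le_of_mul_le_mul_right this hBpos
  have h6 : (p ^ 3 : ℤ) < (𝒜.card : ℤ) * ℬ.card := by exact_mod_cast h
  rw [hP] at h5
  rw [hB] at h5
  linarith

end Vale.Agent.P012
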