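import Vale.Agent.Lib.P012.Chain
import Mathlib.Algebra.Order.Field.Basic
import Mathlib.Data.Rat.Cast.Order
import Mathlib.Tactic

/-!
From sums of divisors to unit fractions; the greedy phase.
-/

namespace Vale.Agent.P012

open Finset

/-- Sum of unit fractions with denominators `A / d`, for divisors `d` of `A`. -/
theorem sum_unit_of_dvd (A : ℕ) (hA : 0 < A) (D : Finset ℕ) (hD : ∀ d ∈ D, d ∣ A) :
    (∑ n ∈ D.image (fun d => A / d), (1:ℚ) / n) = ((∑ d ∈ D, d : ℕ) : ℚ) / A := by
  have hinj : Set.InjOn (fun d => A / d) (D : Set ℕ) := by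
    intro a ha b hb hab
    simp only at hab
    have ha' := hD a (Finset.mem_coe.mp ha)
    have hb' := hD b (Finset.mem_coe.mp hb)
    have e1 : a * (A / a) = A := Nat.mul_div_cancel' ha'
    have e2 : b * (A / b) = A := Nat.mul_div_cancel' hb'
    have hpos : 0 < A / a := Nat.div_pos (Nat.le_of_dvd hA ha') (Nat.pos_of_dvd_of_pos ha' hA)
    rw [← hab] at e2
    exact Nat.eq_of_mul_eq_mul_right hpos (e1.trans e2.symm)
  rw [sum_image hinj]
  push_cast
  rw [sum_div]
  apply sum_congr rfl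
  intro d hd
  have hd' := hD d hd
  have hdpos : 0 < d := Nat.pos_of_dvd_of_pos hd' hA
  rw [Nat.cast_div hd' (by positivity)]
  have : (A:ℚ) ≠ 0 := by positivity
  have : (d:ℚ) ≠ 0 := by positivity
  field_simp

/-- The final stage: a fraction with small numerator is a sum of at most `2 t` unit fractions. -/
theorem top_lemma {W x t u v : ℕ} (hW : 0 < W) (h : Chain W x t) (hu : 0 < u) (huv : u < v)
    (hv : v ≤ x) (huW : u * W < x * v) :
    ∃ s : Finset ℕ, (∀ n ∈ s, 2 ≤ n) ∧ (∑ n ∈ s, (1:ℚ) / n) = (u:ℚ) / v ∧ s.card ≤ 2 * t := by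
  classical
  have hvpos : 0 < v := by omega
  set Q := u * W / v with hQ
  set r := u * W % v with hr
  have hdiv : v * Q + r = u * W := Nat.div_add_mod _ _
  have hrlt : r < v := Nat.mod_lt _ hvpos
  have hQx : Q < x := by
    rw [hQ]
    apply Nat.div_lt_of_lt_mul
    rw [mul_comm v x]
    exact huW
  have hQW : Q < W := by
    rw [hQ]
    apply Nat.div_lt_of_lt_mul
    exact Nat.mul_lt_mul_of_pos_right huv hW
  obtain ⟨D₁, h1, h2, h3⟩ := h Q hQx
  obtain ⟨D₂, h4, h5, h6⟩ := h r (lt_of_lt_of_le hrlt hv)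
  have hD₂' : ∀ d ∈ D₂, d ∣ v * W := fun d hd => (h4 d hd).trans (dvd_mul_left _ _)
  set s₁ := D₁.image (fun d => W / d) with hs₁
  set s₂ := D₂.image (fun d => v * W / d) with hs₂
  have hs₁sum := sum_unit_of_dvd W hW D₁ h1
  have hs₂sum := sum_unit_of_dvd (v * W) (Nat.mul_pos hvpos hW) D₂ hD₂'
  rw [h2] at hs₁sum
  rw [h5] at hs₂sum
  have hle : ∀ d ∈ D₁, d ≤ Q := fun d hd => by
    rw [← h2]
    exact single_le_sum (f := fun d => d) (fun _ _ => Nat.zero_le _) hd
  have hle2 : ∀ d ∈ D₂, d ≤ r := fun d hd => by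
    rw [← h5]
    exact single_le_sum (f := fun d => d) (fun _ _ => Nat.zero_le _) hd
  have hs₁le : ∀ n ∈ s₁, n ≤ W ∧ 2 ≤ n := by
    intro n hn
    obtain ⟨d, hd, rfl⟩ := mem_image.mp hn
    have hdW := h1 d hd
    have hdpos : 0 < d := Nat.pos_of_dvd_of_pos hdW hW
    have hdlt : d < W := lt_of_le_of_lt (hle d hd) hQW
    refine ⟨Nat.div_le_self _ _, ?_⟩
    obtain ⟨c, rfl⟩ := hdW
    rw [Nat.mul_div_cancel_left _ hdpos]
    by_contra hc
    have : c ≤ 1 := by omega
    interval_cases c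
    · simp at hW
    · simp at hdlt
  have hs₂gt : ∀ n ∈ s₂, W < n := by
    intro n hn
    obtain ⟨d, hd, rfl⟩ := mem_image.mp hn
    have hdvw := hD₂' d hd
    have hdpos : 0 < d := Nat.pos_of_dvd_of_pos hdvw (Nat.mul_pos hvpos hW)
    have hdv : d < v := lt_of_le_of_lt (hle2 d hd) hrlt
    by_contra hc
    push Not at hc
    have e1 : d * (v * W / d) = v * W := Nat.mul_div_cancel' hdvw
    have e2 : d * (v * W / d) ≤ d * W := Nat.mul_le_mul_left _ hc
    have e3 : d * W < v * W := Nat.mul_lt_mul_of_pos_right hdv hW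
    omega
  have hdisj : Disjoint s₁ s₂ := by
    rw [disjoint_left]
    intro n hn1 hn2
    have := (hs₁le n hn1).1
    have := hs₂gt n hn2
    omega
  refine ⟨s₁ ∪ s₂, ?_, ?_, ?_⟩
  · intro n hn
    rcases mem_union.mp hn with hn | hn
    · exact (hs₁le n hn).2
    · have := hs₂gt n hn
      omega
  · rw [sum_union hdisj, hs₁sum, hs₂sum]
    have hWq : (W:ℚ) ≠ 0 := by positivity
    have hvq : (v:ℚ) ≠ 0 := by positivity
    have hdivq : (v:ℚ) * Q + r = u * W := by exact_mod_cast hdiv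
    push_cast
    field_simp
    linarith
  · have h7 : s₁.card ≤ t := card_image_le.trans h3
    have h8 : s₂.card ≤ t := card_image_le.trans h6
    have h9 := card_union_le s₁ s₂
    omega

/-- One greedy step. -/
theorem greedy_step {u v : ℕ} (hu : 0 < u) :
    ∃ n u₁ : ℕ, u₁ < u ∧ v ≤ n * u ∧ u₁ + v = n * u := by
  obtain ⟨n, hn⟩ : ∃ n, n = (v + u - 1) / u := ⟨_, rfl⟩
  have h := Nat.div_add_mod (v + u - 1) u
  have h2 := Nat.mod_lt (v + u - 1) hu
  rw [← hn, mul_comm] at h
  refine ⟨n, n * u - v, ?_, ?_, ?_⟩ <;> omega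

/-- Rational form of a greedy step. -/
theorem greedy_eq {u v n u₁ : ℕ} (hv : 0 < v) (hn : 0 < n) (h : u₁ + v = n * u) :
    (u:ℚ) / v = 1 / n + (u₁:ℚ) / (v * n : ℕ) := by
  have hvq : (v:ℚ) ≠ 0 := by positivity
  have hnq : (n:ℚ) ≠ 0 := by positivity
  have hq : (u₁:ℚ) + v = n * u := by exact_mod_cast h
  push_cast
  field_simp
  linarith

/-- The greedy phase from a fraction with `u * 2 ^ (2 ^ m) ≤ v`. -/
theorem greedy_aux (b : ℕ) (hb : 2 ≤ b) (j : ℕ) : ∀ (m u v : ℕ), 0 < u → u ≤ b →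
    u * 2 ^ (2 ^ m) ≤ v → v ≤ b ^ 3 → b ≤ 2 ^ (2 ^ (m + j)) →
    ∃ (G : Finset ℕ) (u' v' : ℕ), (∀ n ∈ G, 2 ≤ n ∧ v ≤ n * u ∧ n * u' < v') ∧
      (u:ℚ) / v = ∑ n ∈ G, (1:ℚ) / n + (u':ℚ) / v' ∧ G.card ≤ j ∧ 0 < v' ∧ v' ≤ b ^ 3 ∧
      b * u' ≤ v' := by
  induction j with
  | zero =>
    intro m u v hu _ h1 h2 h3
    have hvpos : 0 < v := lt_of_lt_of_le (Nat.mul_pos hu (by positivity)) h1
    refine ⟨∅, u, v, by simp, by simp, by simp, hvpos, h2, ?_⟩
    calc b * u ≤ 2 ^ (2 ^ m) * u := Nat.mul_le_mul_right _ (by simpa using h3)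
      _ = u * 2 ^ (2 ^ m) := by ring
      _ ≤ v := h1
  | succ j ih =>
    intro m u v hu hub h1 h2 h3
    have hvpos : 0 < v := lt_of_lt_of_le (Nat.mul_pos hu (by positivity)) h1
    have hA : 2 ≤ 2 ^ (2 ^ m) := by
      calc 2 = 2 ^ 1 := by norm_num
        _ ≤ 2 ^ (2 ^ m) := Nat.pow_le_pow_right (by norm_num) Nat.one_le_two_pow
    have huv : u < v := by
      calc u < u * 2 ^ (2 ^ m) := by nlinarith
        _ ≤ v := h1
    by_cases hstop : b * u ≤ v
    · exact ⟨∅, u, v, by simp, by simp, by simp, hvpos, h2, hstop⟩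
    push Not at hstop
    obtain ⟨n, u₁, hu₁, hn1, hn2⟩ := greedy_step (v := v) hu
    have hnA : 2 ^ (2 ^ m) ≤ n := by
      have : u * 2 ^ (2 ^ m) ≤ u * n := by
        calc u * 2 ^ (2 ^ m) ≤ v := h1
          _ ≤ n * u := hn1
          _ = u * n := by ring
      exact Nat.le_of_mul_le_mul_left this hu
    have hn2le : 2 ≤ n := hA.trans hnA
    have hnb : n ≤ b := by
      by_contra hc
      push Not at hc
      have e1 : (b + 1) * u ≤ n * u := Nat.mul_le_mul_right _ hc
      nlinarith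
    have hvb : v ≤ b * b := by
      calc v ≤ b * u := hstop.le
        _ ≤ b * b := Nat.mul_le_mul_left _ hub
    have hv₁ : v * n ≤ b ^ 3 := by
      calc v * n ≤ (b * b) * b := Nat.mul_le_mul hvb hnb
        _ = b ^ 3 := by ring
    have hv₁pos : 0 < v * n := Nat.mul_pos hvpos (by omega)
    have heq := greedy_eq hvpos (by omega) hn2
    rcases Nat.eq_zero_or_pos u₁ with h0 | hu₁pos
    · -- exact stop
      refine ⟨{n}, 0, v * n, ?_, ?_, by simp, hv₁pos, hv₁, by simp⟩
      · intro n' hn'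
        rw [mem_singleton] at hn'
        subst hn'
        exact ⟨hn2le, hn1, by simpa using hv₁pos⟩
      · rw [heq, h0]
        simp
    · have hIH := ih (m + 1) u₁ (v * n) hu₁pos (by omega) ?_ hv₁ (by
        have : m + 1 + j = m + (j + 1) := by omega
        rw [this]; exact h3)
      · obtain ⟨G, u', v', hG, hGeq, hGcard, hv'pos, hv'le, hv'b⟩ := hIH
        have hnot : n ∉ G := by
          intro hmem
          have e1 := (hG n hmem).2.1
          have e2 : n * v ≤ n * u₁ := by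
            calc n * v = v * n := by ring
              _ ≤ n * u₁ := e1
          have e3 := Nat.le_of_mul_le_mul_left e2 (by omega)
          omega
        refine ⟨insert n G, u', v', ?_, ?_, ?_, hv'pos, hv'le, hv'b⟩
        · intro n' hn'
          rcases mem_insert.mp hn' with rfl | hn'
          · refine ⟨hn2le, hn1, ?_⟩
            -- remainder smaller than the term
            have hsumnn : (0:ℚ) ≤ ∑ n ∈ G, (1:ℚ) / n :=
              sum_nonneg (fun _ _ => by positivity)
            have hq1 : (u':ℚ) / v' ≤ (u₁:ℚ) / ((v * n' : ℕ) : ℚ) := by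
              rw [hGeq]; linarith
            have hq2 : (u₁:ℚ) / ((v * n' : ℕ) : ℚ) < 1 / n' := by
              have hvn : (0:ℚ) < ((v * n' : ℕ) : ℚ) := by exact_mod_cast hv₁pos
              have hnq : (0:ℚ) < n' := by exact_mod_cast (by omega : 0 < n')
              rw [div_lt_div_iff₀ hvn hnq]
              have : u₁ * n' < 1 * (v * n') := by
                rw [one_mul]
                exact Nat.mul_lt_mul_of_pos_right (by omega) (by omega)
              exact_mod_cast this
            have hq3 : (u':ℚ) / v' < 1 / n' := lt_of_le_of_lt hq1 hq2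
            have hv'q : (0:ℚ) < v' := by exact_mod_cast hv'pos
            have hnq : (0:ℚ) < n' := by exact_mod_cast (by omega : 0 < n')
            rw [div_lt_div_iff₀ hv'q hnq] at hq3
            have : u' * n' < 1 * v' := by exact_mod_cast hq3
            rw [one_mul] at this
            rw [mul_comm]; exact this
          · obtain ⟨e1, e2, e3⟩ := hG n' hn'
            refine ⟨e1, ?_, e3⟩
            calc v ≤ v * n := Nat.le_mul_of_pos_right _ (by omega)
              _ ≤ n' * u₁ := e2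
              _ ≤ n' * u := Nat.mul_le_mul_left _ hu₁.le
        · rw [sum_insert hnot, heq, hGeq]
          ring
        · rw [card_insert_of_notMem hnot]; omega
      · -- invariant for the next step
        have e : 2 ^ (2 ^ (m + 1)) = 2 ^ (2 ^ m) * 2 ^ (2 ^ m) := by
          rw [← pow_add]; congr 1; rw [pow_succ]; ring
        rw [e]
        calc u₁ * (2 ^ (2 ^ m) * 2 ^ (2 ^ m)) ≤ u * (2 ^ (2 ^ m) * n) :=
              Nat.mul_le_mul hu₁.le (Nat.mul_le_mul_left _ hnA)
          _ = (u * 2 ^ (2 ^ m)) * n := by ring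
          _ ≤ v * n := Nat.mul_le_mul_right _ h1

/-- The complete greedy phase. -/
theorem greedy_full (a b j : ℕ) (ha : 0 < a) (hab : a < b) (hj : b ≤ 2 ^ (2 ^ j)) :
    ∃ (G : Finset ℕ) (u' v' : ℕ), (∀ n ∈ G, 2 ≤ n ∧ n * u' < v') ∧
      (a:ℚ) / b = ∑ n ∈ G, (1:ℚ) / n + (u':ℚ) / v' ∧ G.card ≤ j + 1 ∧ 0 < v' ∧ v' ≤ b ^ 3 ∧
      b * u' ≤ v' := by
  have hb : 2 ≤ b := by omega
  have hbpos : 0 < b := by omega
  obtain ⟨n, u₁, hu₁, hn1, hn2⟩ := greedy_step (v := b) ha
  have hn2le : 2 ≤ n := by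
    by_contra hc
    have : n ≤ 1 := by omega
    have : n * a ≤ 1 * a := Nat.mul_le_mul_right _ this
    omega
  have hnb : n ≤ b := by
    by_contra hc
    push Not at hc
    have e1 : (b + 1) * a ≤ n * a := Nat.mul_le_mul_right _ hc
    nlinarith
  have hv₁ : b * n ≤ b ^ 3 := by
    calc b * n ≤ b * b := Nat.mul_le_mul_left _ hnb
      _ = b * b * 1 := by ring
      _ ≤ b * b * b := Nat.mul_le_mul_left _ (by omega)
      _ = b ^ 3 := by ring
  have hv₁pos : 0 < b * n := Nat.mul_pos hbpos (by omega)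
  have heq := greedy_eq hbpos (by omega) hn2
  rcases Nat.eq_zero_or_pos u₁ with h0 | hu₁pos
  · refine ⟨{n}, 0, b * n, ?_, ?_, by simp, hv₁pos, hv₁, by simp⟩
    · intro n' hn'
      rw [mem_singleton] at hn'
      subst hn'
      exact ⟨hn2le, by simpa using hv₁pos⟩
    · rw [heq, h0]
      simp
  · have hinv : u₁ * 2 ^ (2 ^ 0) ≤ b * n := by
      norm_num
      have : b * 2 ≤ b * n := Nat.mul_le_mul_left _ hn2le
      omega
    obtain ⟨G, u', v', hG, hGeq, hGcard, hv'pos, hv'le, hv'b⟩ :=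
      greedy_aux b hb j 0 u₁ (b * n) hu₁pos (by omega) hinv hv₁ (by simpa using hj)
    have hnot : n ∉ G := by
      intro hmem
      have e1 := (hG n hmem).2.1
      have e2 : n * b ≤ n * u₁ := by
        calc n * b = b * n := by ring
          _ ≤ n * u₁ := e1
      have e3 := Nat.le_of_mul_le_mul_left e2 (by omega)
      omega
    refine ⟨insert n G, u', v', ?_, ?_, ?_, hv'pos, hv'le, hv'b⟩
    · intro n' hn'
      rcases mem_insert.mp hn' with rfl | hn'
      · refine ⟨hn2le, ?_⟩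
        have hsumnn : (0:ℚ) ≤ ∑ n ∈ G, (1:ℚ) / n :=
          sum_nonneg (fun _ _ => by positivity)
        have hq1 : (u':ℚ) / v' ≤ (u₁:ℚ) / ((b * n' : ℕ) : ℚ) := by
          rw [hGeq]; linarith
        have hq2 : (u₁:ℚ) / ((b * n' : ℕ) : ℚ) < 1 / n' := by
          have hvn : (0:ℚ) < ((b * n' : ℕ) : ℚ) := by exact_mod_cast hv₁pos
          have hnq : (0:ℚ) < n' := by exact_mod_cast (by omega : 0 < n')
          rw [div_lt_div_iff₀ hvn hnq]
          have : u₁ * n' < 1 * (b * n') := by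
            rw [one_mul]
            exact Nat.mul_lt_mul_of_pos_right (by omega) (by omega)
          exact_mod_cast this
        have hq3 : (u':ℚ) / v' < 1 / n' := lt_of_le_of_lt hq1 hq2
        have hv'q : (0:ℚ) < v' := by exact_mod_cast hv'pos
        have hnq : (0:ℚ) < n' := by exact_mod_cast (by omega : 0 < n')
        rw [div_lt_div_iff₀ hv'q hnq] at hq3
        have : u' * n' < 1 * v' := by exact_mod_cast hq3
        rw [one_mul] at this
        rw [mul_comm]; exact this
      · obtain ⟨e1, _, e3⟩ := hG n' hn'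
        exact ⟨e1, e3⟩
    · rw [sum_insert hnot, heq, hGeq]
      ring
    · rw [card_insert_of_notMem hnot]; omega

/-- Combining the greedy phase with a chain. -/
theorem combine {a b j W x t : ℕ} (ha : 0 < a) (hab : a < b) (hj : b ≤ 2 ^ (2 ^ j))
    (hW : 0 < W) (hC : Chain W x t) (hx : b ^ 3 ≤ x) (hWx : W < x * b) :
    ∃ s : Finset ℕ, (∀ n ∈ s, 2 ≤ n) ∧ (∑ n ∈ s, (1:ℚ) / n) = (a:ℚ) / b ∧
      s.card ≤ j + 1 + 2 * t := by
  classical
  obtain ⟨G, u', v', hG, hGeq, hGcard, hv'pos, hv'le, hv'b⟩ := greedy_full a b j ha hab hj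
  rcases Nat.eq_zero_or_pos u' with h0 | hu'pos
  · refine ⟨G, fun n hn => (hG n hn).1, ?_, ?_⟩
    · rw [hGeq, h0]; simp
    · omega
  · have hb2 : 2 ≤ b := by omega
    have huv : u' < v' := by
      calc u' < b * u' := by nlinarith
        _ ≤ v' := hv'b
    have hlt : u' * W < x * v' := by
      calc u' * W < u' * (x * b) := Nat.mul_lt_mul_of_pos_left hWx hu'pos
        _ = x * (b * u') := by ring
        _ ≤ x * v' := Nat.mul_le_mul_left _ hv'b
    obtain ⟨s, hs1, hs2, hs3⟩ := top_lemma hW hC hu'pos huv (hv'le.trans hx) hlt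
    have hdisj : Disjoint G s := by
      rw [disjoint_left]
      intro n hnG hns
      obtain ⟨e1, e2⟩ := hG n hnG
      have hle : (1:ℚ) / n ≤ (u':ℚ) / v' := by
        rw [← hs2]
        exact single_le_sum (f := fun n : ℕ => (1:ℚ) / n) (fun _ _ => by positivity) hns
      have hnq : (0:ℚ) < n := by exact_mod_cast (by omega : 0 < n)
      have hv'q : (0:ℚ) < v' := by exact_mod_cast hv'pos
      rw [div_le_div_iff₀ hnq hv'q] at hle
      have : 1 * v' ≤ u' * n := by exact_mod_cast hle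
      rw [one_mul, mul_comm] at this
      omega
    refine ⟨G ∪ s, ?_, ?_, ?_⟩
    · intro n hn
      rcases mem_union.mp hn with hn | hn
      · exact (hG n hn).1
      · exact hs1 n hn
    · rw [sum_union hdisj, hs2, hGeq]
    · have := card_union_le G s
      omega

end Vale.Agent.P012
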