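import Vale.Agent.Lib.P012.Params
import Vale.Agent.Lib.P012.Egyptian

/-!
Assembly of the final estimate.
-/

namespace Vale.Agent.P012

open Finset

/-- Level selection. -/
theorem exists_level (b I₀ : ℕ) (hb : 2 ^ (4 * I₀ * 2 ^ I₀) ≤ b) :
    ∃ I, I₀ ≤ I ∧ 2 ^ (4 * I * 2 ^ I) ≤ b ∧ b < 2 ^ (4 * (I + 1) * 2 ^ (I + 1)) := by
  classical
  have hself : ∀ I, I < 2 ^ (4 * I * 2 ^ I) ∨ I = 0 := by
    intro I
    rcases Nat.eq_zero_or_pos I with h | h
    · exact Or.inr h
    · left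
      have h1 : I ≤ 4 * I * 2 ^ I := by
        have : 1 ≤ 2 ^ I := Nat.one_le_two_pow
        nlinarith
      exact lt_of_le_of_lt h1 Nat.lt_two_pow_self
  set Q : ℕ → Prop := fun I => 2 ^ (4 * I * 2 ^ I) ≤ b with hQ
  have hbpos : 1 ≤ b := le_trans Nat.one_le_two_pow hb
  have hI₀b : I₀ ≤ b := by
    rcases hself I₀ with h | h
    · exact le_trans h.le hb
    · omega
  set I := Nat.findGreatest Q b with hI
  have hspec : Q I := Nat.findGreatest_spec hI₀b hb
  have hle : I₀ ≤ I := Nat.le_findGreatest hI₀b hb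
  refine ⟨I, hle, hspec, ?_⟩
  have hIb : I + 1 ≤ b := by
    rcases hself I with h | h
    · have := le_trans h.le hspec
      have h2 : I < b := lt_of_lt_of_le h hspec
      omega
    · omega
  have hnot := Nat.findGreatest_is_greatest (P := Q) (n := b) (k := I + 1)
    (by rw [← hI]; omega) hIb
  simpa [hQ] using hnot

/-- The natural number form of the main result. -/
theorem main_nat (a b I : ℕ) (hI : 22 ≤ I) (hb1 : 2 ^ (4 * I * 2 ^ I) ≤ b)
    (hb2 : b < 2 ^ (4 * (I + 1) * 2 ^ (I + 1))) (ha : 0 < a) (hab : a < b) :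
    ∃ s : Finset ℕ, (∀ n ∈ s, 2 ≤ n) ∧ (∑ n ∈ s, (1:ℚ) / n) = (a:ℚ) / b ∧
      s.card ≤ (2 * I + 3) + 1 + 2 * chainTerms I := by
  obtain ⟨P, W, x, hPpos, hPle, hC, hW, hx⟩ := chain_final I hI
  have hxpos : 0 < x := lt_of_lt_of_le (by positivity) hx
  have hWpos : 0 < W := by
    have : 0 < x * P ^ 2 := by positivity
    omega
  have hbpos : 0 < b := by omega
  have hI2 : I + 1 ≤ 2 ^ I := by
    exact Nat.lt_two_pow_self
  have hj : b ≤ 2 ^ (2 ^ (2 * I + 3)) := by
    refine hb2.le.trans (Nat.pow_le_pow_right (by norm_num) ?_)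
    calc 4 * (I + 1) * 2 ^ (I + 1) ≤ 4 * 2 ^ I * 2 ^ (I + 1) :=
          Nat.mul_le_mul_right _ (Nat.mul_le_mul_left _ hI2)
      _ = 2 ^ (2 * I + 3) := by ring
  have hbx : b ^ 3 ≤ x := by
    refine le_trans ?_ hx
    calc b ^ 3 ≤ (2 ^ (4 * (I + 1) * 2 ^ (I + 1))) ^ 3 := Nat.pow_le_pow_left hb2.le 3
      _ = 2 ^ (4 * (I + 1) * 2 ^ (I + 1) * 3) := by rw [← pow_mul]
      _ ≤ 2 ^ (96 * I * 2 ^ I) := by
          apply Nat.pow_le_pow_right (by norm_num)
          have e : 2 ^ (I + 1) = 2 * 2 ^ I := by rw [pow_succ]; ring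
          rw [e]
          have : (I + 1) ≤ 4 * I := by omega
          calc 4 * (I + 1) * (2 * 2 ^ I) * 3 = 24 * (I + 1) * 2 ^ I := by ring
            _ ≤ 24 * (4 * I) * 2 ^ I :=
              Nat.mul_le_mul_right _ (Nat.mul_le_mul_left _ this)
            _ = 96 * I * 2 ^ I := by ring
  have hWx : W < x * b := by
    have hP2 : P ^ 2 ≤ b := by
      refine le_trans ?_ hb1
      calc P ^ 2 ≤ (2 ^ (2 * I * 2 ^ I)) ^ 2 := Nat.pow_le_pow_left hPle 2
        _ = 2 ^ (4 * I * 2 ^ I) := by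
          rw [← pow_mul]; congr 1; ring
    have h1 : 2 * W ≤ x * b := by
      rw [hW]; exact Nat.mul_le_mul_left _ hP2
    omega
  exact combine ha hab hj hWpos hC hbx hWx

/-- A bound for the number of terms of the chain. -/
theorem chainTerms_le (I : ℕ) (hI : 22 ≤ I) :
    (chainTerms I : ℝ) ≤ 6146 * I + 1024 * I * (1 + Real.log I) := by
  obtain ⟨N, hN⟩ : ∃ N, N = I - 6 := ⟨_, rfl⟩
  have hNI : N + 6 = I := by omega
  have hsum : ∑ i ∈ range N, (512 * I / (I - (5 + i) - 1) + 1)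
      = ∑ k ∈ range N, (512 * I / (k + 1)) + N := by
    rw [sum_add_distrib]
    simp only [sum_const, card_range, smul_eq_mul, mul_one]
    congr 1
    rw [← sum_range_reflect (fun k => 512 * I / (k + 1)) N]
    apply sum_congr rfl
    intro i hi
    have hi' := mem_range.mp hi
    have e : N - 1 - i + 1 = I - (5 + i) - 1 := by omega
    simp only [e]
  have hreal : ((∑ k ∈ range N, (512 * I / (k + 1)) : ℕ) : ℝ)
      ≤ 512 * I * (1 + Real.log I) := by
    push_cast
    have h1 : ∀ k ∈ range N, (((512 * I / (k + 1) : ℕ)) : ℝ) ≤ 512 * I * ((k + 1 : ℕ) : ℝ)⁻¹ := by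
      intro k _
      have := @Nat.cast_div_le ℝ _ _ _ (512 * I) (k + 1)
      push_cast at this ⊢
      rw [div_eq_mul_inv] at this
      exact this
    have h2 : ∑ k ∈ range N, (512 * (I:ℝ)) * ((k + 1 : ℕ) : ℝ)⁻¹ = 512 * I * (harmonic N : ℝ) := by
      rw [← mul_sum]
      congr 1
      simp [harmonic]
    have h3 := harmonic_le_one_add_log N
    have hlog : Real.log N ≤ Real.log I := by
      rcases Nat.eq_zero_or_pos N with h0 | h0
      · rw [h0]
        simp only [Nat.cast_zero, Real.log_zero]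
        exact Real.log_natCast_nonneg I
      · apply Real.log_le_log (by exact_mod_cast h0)
        have : N ≤ I := by omega
        exact_mod_cast this
    have hIpos : (0:ℝ) ≤ 512 * I := by positivity
    calc _ ≤ ∑ k ∈ range N, (512 * (I:ℝ)) * ((k + 1 : ℕ) : ℝ)⁻¹ := by
          apply sum_le_sum
          intro k hk
          have := h1 k hk
          push_cast at this ⊢
          exact this
      _ = 512 * I * (harmonic N : ℝ) := h2
      _ ≤ 512 * I * (1 + Real.log I) :=
          mul_le_mul_of_nonneg_left (h3.trans (by linarith)) hIpos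
  have hNle : (N:ℝ) ≤ I := by
    have : N ≤ I := by omega
    exact_mod_cast this
  rw [chainTerms, ← hN, hsum]
  push_cast at hreal ⊢
  linarith

/-- The final real estimate. -/
theorem final_estimate (b I : ℕ) (hI : 22 ≤ I) (hb1 : 2 ^ (4 * I * 2 ^ I) ≤ b) :
    (((2 * I + 3) + 1 + 2 * chainTerms I : ℕ) : ℝ)
      ≤ 90000 * Real.log (Real.log b) * Real.log (Real.log (Real.log b)) := by
  have hl2 : (0.69:ℝ) < Real.log 2 := by
    have := Real.log_two_gt_d9; linarith
  have hIr : (22:ℝ) ≤ I := by exact_mod_cast hI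
  have hbreal : ((2:ℝ) ^ (4 * I * 2 ^ I)) ≤ b := by exact_mod_cast hb1
  have hlogb : ((4 * I * 2 ^ I : ℕ) : ℝ) * Real.log 2 ≤ Real.log b := by
    rw [← Real.log_pow]
    exact Real.log_le_log (by positivity) hbreal
  set p2 : ℝ := (2:ℝ) ^ I with hp2
  have hp2ge : (1:ℝ) ≤ p2 := one_le_pow₀ (by norm_num)
  have hlogb' : 60 * p2 ≤ Real.log b := by
    refine le_trans ?_ hlogb
    push_cast
    have : (4 * (I:ℝ) * p2) * 0.69 ≤ (4 * (I:ℝ) * p2) * Real.log 2 :=
      mul_le_mul_of_nonneg_left hl2.le (by positivity)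
    nlinarith [mul_le_mul_of_nonneg_right hIr (by positivity : (0:ℝ) ≤ p2)]
  have hlogbpos : 0 < Real.log b := by nlinarith
  set Lam := Real.log (Real.log b) with hLam
  -- `Lam ≥ 3`
  have hexp3 : Real.exp 3 ≤ 21 := by
    have h1 : Real.exp 3 = Real.exp 1 ^ 3 := by
      rw [← Real.exp_nat_mul]; norm_num
    have h2 := Real.exp_one_lt_d9
    rw [h1]
    have h3 : Real.exp 1 ^ 3 ≤ (2.72:ℝ) ^ 3 :=
      pow_le_pow_left₀ (Real.exp_pos 1).le (by linarith) 3
    norm_num at h3 ⊢
    linarith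
  have hLam3 : 3 ≤ Lam := by
    rw [hLam, Real.le_log_iff_exp_le hlogbpos]
    nlinarith
  -- `I ≤ 2 * Lam`
  have hIle : (I:ℝ) ≤ 2 * Lam := by
    have h1 : Real.log p2 ≤ Lam := by
      rw [hLam]
      apply Real.log_le_log (by positivity)
      nlinarith
    have h2 : Real.log p2 = I * Real.log 2 := by
      rw [hp2, Real.log_pow]
    rw [h2] at h1
    have hI0 : (0:ℝ) ≤ I := by positivity
    nlinarith [mul_le_mul_of_nonneg_left hl2.le hI0]
  have hLamlog : 1 ≤ Real.log Lam := by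
    rw [Real.le_log_iff_exp_le (by linarith)]
    have := Real.exp_one_lt_d9
    linarith
  have hlogI : Real.log I ≤ 1 + Real.log Lam := by
    have h1 : Real.log I ≤ Real.log (2 * Lam) :=
      Real.log_le_log (by linarith) hIle
    rw [Real.log_mul (by norm_num) (by linarith)] at h1
    have := Real.log_two_lt_d9
    linarith
  have hct := chainTerms_le I hI
  set l := Real.log Lam with hl
  have hlogI0 : 0 ≤ Real.log I := Real.log_natCast_nonneg I
  push_cast
  -- assemble
  have h1 : 2 * (I:ℝ) + 3 + 1 + 2 * (chainTerms I : ℝ)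
      ≤ 2 * I + 4 + 2 * (6146 * I + 1024 * I * (1 + Real.log I)) := by linarith
  have h2 : 2 * (I:ℝ) + 4 + 2 * (6146 * I + 1024 * I * (1 + Real.log I))
      ≤ 15000 * I * (1 + Real.log I) := by
    have : (I:ℝ) * Real.log I ≥ 0 := by positivity
    nlinarith
  have h3 : (I:ℝ) * (1 + Real.log I) ≤ (2 * Lam) * (3 * l) := by
    apply mul_le_mul hIle (by linarith) (by linarith) (by linarith)
  nlinarith

end Vale.Agent.P012
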