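import Mathlib.Data.ZMod.Basic
import Mathlib.Algebra.BigOperators.Ring.Finset
import Mathlib.Algebra.Order.Chebyshev
import Mathlib.Data.Nat.PrimeFin
import Mathlib.Tactic

/-!
Averaging over primes: a set of integers has large image modulo some prime of a given family.
-/

namespace Vale.Agent.P012

open Finset

/-- Cauchy-Schwarz for fibers of a map. -/
theorem card_sq_le_image_mul {α β : Type*} [DecidableEq α] [DecidableEq β] (S : Finset α)
    (f : α → β) :
    S.card ^ 2 ≤ (S.image f).card * ((S ×ˢ S).filter (fun x => f x.1 = f x.2)).card := by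
  classical
  have h1 : S.card = ∑ c ∈ S.image f, (S.filter (fun a => f a = c)).card :=
    card_eq_sum_card_image f S
  have h2 : ((S ×ˢ S).filter (fun x => f x.1 = f x.2)).card
      = ∑ c ∈ S.image f, (S.filter (fun a => f a = c)).card ^ 2 := by
    rw [card_eq_sum_card_fiberwise (f := fun x => f x.1) (t := S.image f)]
    · apply sum_congr rfl
      intro c _
      rw [sq, ← card_product]
      congr 1
      ext x
      simp only [mem_filter, mem_product]
      constructor
      · rintro ⟨⟨⟨h1, h2⟩, h3⟩, h4⟩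
        exact ⟨⟨h1, h4⟩, ⟨h2, h3 ▸ h4⟩⟩
      · rintro ⟨⟨h1, h2⟩, ⟨h3, h4⟩⟩
        exact ⟨⟨⟨h1, h3⟩, h2.trans h4.symm⟩, h2⟩
    · intro x hx
      have hx' := mem_filter.mp (Finset.mem_coe.mp hx)
      exact Finset.mem_coe.mpr (mem_image_of_mem f (mem_product.mp hx'.1).1)
  rw [h2, h1]
  exact sq_sum_le_card_mul_sum_sq

/-- A nonzero number below `2 ^ T` has at most `T` prime divisors. -/
theorem card_prime_dvd_le (𝒬 : Finset ℕ) (h𝒬 : ∀ q ∈ 𝒬, q.Prime) (m T : ℕ) (hm : m ≠ 0)
    (hmT : m ≤ 2 ^ T) : (𝒬.filter (fun q => q ∣ m)).card ≤ T := by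
  have hsub : 𝒬.filter (fun q => q ∣ m) ⊆ m.primeFactors := by
    intro q hq
    obtain ⟨h1, h2⟩ := mem_filter.mp hq
    exact Nat.mem_primeFactors.mpr ⟨h𝒬 q h1, h2, hm⟩
  have h2 : 2 ^ m.primeFactors.card ≤ ∏ p ∈ m.primeFactors, p :=
    pow_card_le_prod _ _ _ (fun p hp => (Nat.prime_of_mem_primeFactors hp).two_le)
  have h3 : ∏ p ∈ m.primeFactors, p ≤ m :=
    Nat.le_of_dvd (Nat.pos_of_ne_zero hm) (Nat.prod_primeFactors_dvd m)
  have h4 : m.primeFactors.card ≤ T :=
    (Nat.pow_le_pow_iff_right (by norm_num)).mp ((h2.trans h3).trans hmT)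
  exact (card_le_card hsub).trans h4

/-- Averaging: some prime of the family has few collisions on `S`. -/
theorem exists_large_image (S 𝒬 : Finset ℕ) (T : ℕ) (h𝒬 : ∀ q ∈ 𝒬, q.Prime)
    (hS : ∀ n ∈ S, 0 < n ∧ n ≤ 2 ^ T) (hne : 𝒬.Nonempty) :
    ∃ q ∈ 𝒬, S.card * 𝒬.card
      ≤ (S.image (fun n : ℕ => (n : ZMod q))).card * (𝒬.card + S.card * T) := by
  classical
  -- collisions
  set coll : ℕ → ℕ := fun q =>
    ((S ×ˢ S).filter (fun x => x.1 ≠ x.2 ∧ (x.1 : ZMod q) = (x.2 : ZMod q))).card with hcoll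
  have hsum : ∑ q ∈ 𝒬, coll q ≤ S.card ^ 2 * T := by
    have : ∑ q ∈ 𝒬, coll q = ∑ x ∈ S ×ˢ S,
        (𝒬.filter (fun q => x.1 ≠ x.2 ∧ (x.1 : ZMod q) = (x.2 : ZMod q))).card := by
      simp only [hcoll, card_filter]
      rw [sum_comm]
    rw [this]
    have h2 : ∀ x ∈ S ×ˢ S,
        (𝒬.filter (fun q => x.1 ≠ x.2 ∧ (x.1 : ZMod q) = (x.2 : ZMod q))).card ≤ T := by
      intro x hx
      by_cases hxe : x.1 = x.2
      · simp [hxe]
      · set m := max x.1 x.2 - min x.1 x.2 with hm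
        have hx1 := hS x.1 (mem_product.mp hx).1
        have hx2 := hS x.2 (mem_product.mp hx).2
        have hm0 : m ≠ 0 := by
          rw [hm]; omega
        have hmT : m ≤ 2 ^ T := by
          rw [hm]; omega
        refine le_trans (card_le_card ?_) (card_prime_dvd_le 𝒬 h𝒬 m T hm0 hmT)
        intro q hq
        obtain ⟨h1, _, h3⟩ := mem_filter.mp hq
        refine mem_filter.mpr ⟨h1, ?_⟩
        rw [ZMod.natCast_eq_natCast_iff] at h3
        rcases le_total x.1 x.2 with hle | hle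
        · have : m = x.2 - x.1 := by rw [hm]; omega
          rw [this]
          exact (Nat.modEq_iff_dvd' hle).mp h3
        · have : m = x.1 - x.2 := by rw [hm]; omega
          rw [this]
          exact (Nat.modEq_iff_dvd' hle).mp h3.symm
    refine (sum_le_card_nsmul _ _ _ h2).trans ?_
    simp [sq]
  -- pigeonhole
  obtain ⟨q, hq, hqle⟩ : ∃ q ∈ 𝒬, 𝒬.card * coll q ≤ S.card ^ 2 * T := by
    apply exists_le_of_sum_le hne
    simp only [sum_const, smul_eq_mul, ← mul_sum]
    exact Nat.mul_le_mul_left _ hsum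
  refine ⟨q, hq, ?_⟩
  -- Cauchy-Schwarz
  have hcs := card_sq_le_image_mul S (fun n : ℕ => (n : ZMod q))
  have hE : ((S ×ˢ S).filter (fun x => (x.1 : ZMod q) = (x.2 : ZMod q))).card
      ≤ S.card + coll q := by
    have hsplit : (S ×ˢ S).filter (fun x => (x.1 : ZMod q) = (x.2 : ZMod q))
        ⊆ (S.image (fun n => (n, n))) ∪
          (S ×ˢ S).filter (fun x => x.1 ≠ x.2 ∧ (x.1 : ZMod q) = (x.2 : ZMod q)) := by
      intro x hx
      obtain ⟨h1, h2⟩ := mem_filter.mp hx
      by_cases hxe : x.1 = x.2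
      · apply mem_union_left
        refine mem_image.mpr ⟨x.1, (mem_product.mp h1).1, ?_⟩
        ext <;> simp [hxe]
      · exact mem_union_right _ (mem_filter.mpr ⟨h1, hxe, h2⟩)
    refine (card_le_card hsplit).trans ((card_union_le _ _).trans ?_)
    exact Nat.add_le_add_right card_image_le _
  set I := (S.image (fun n : ℕ => (n : ZMod q))).card with hI
  have h3 : S.card ^ 2 ≤ I * (S.card + coll q) := hcs.trans (Nat.mul_le_mul_left _ hE)
  rcases Nat.eq_zero_or_pos S.card with h0 | h0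
  · simp [h0]
  · have h4 : S.card * (S.card * 𝒬.card) ≤ S.card * (I * (𝒬.card + S.card * T)) := by
      calc S.card * (S.card * 𝒬.card) = S.card ^ 2 * 𝒬.card := by ring
        _ ≤ I * (S.card + coll q) * 𝒬.card := Nat.mul_le_mul_right _ h3
        _ = I * (S.card * 𝒬.card + 𝒬.card * coll q) := by ring
        _ ≤ I * (S.card * 𝒬.card + S.card ^ 2 * T) :=
            Nat.mul_le_mul_left _ (Nat.add_le_add_left hqle _)
        _ = S.card * (I * (𝒬.card + S.card * T)) := by ring
    exact Nat.le_of_mul_le_mul_left h4 h0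

end Vale.Agent.P012
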