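import Vale.Agent.Lib.P012.DotCover
import Vale.Agent.Lib.P012.Image

/-!
One level of the descent: a modulus `q` such that every nonzero residue is a sum of a product
of two elements of `S` and twice such a product.
-/

namespace Vale.Agent.P012

open Finset

theorem level_cover (S 𝒬 : Finset ℕ) (T : ℕ) (hT : 2 ≤ T)
    (h𝒬 : ∀ q ∈ 𝒬, q.Prime ∧ T ^ 24 < q ∧ q ≤ T ^ 32)
    (h𝒬c : T ^ 28 ≤ 𝒬.card) (hSc : T ^ 32 ≤ S.card)
    (hS : ∀ n ∈ S, 0 < n ∧ n ≤ 2 ^ T ∧ ∀ q ∈ 𝒬, ¬ q ∣ n) :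
    ∃ q ∈ 𝒬, ∀ c : ℕ, ¬ q ∣ c → ∃ a₁ ∈ S, ∃ b₁ ∈ S, ∃ a₂ ∈ S, ∃ b₂ ∈ S,
      ((a₁ * b₁ + 2 * a₂ * b₂ : ℕ) : ZMod q) = (c : ZMod q) := by
  classical
  have hTpos : 0 < T := by omega
  have hne : 𝒬.Nonempty := by
    rw [← card_pos]
    exact lt_of_lt_of_le (pow_pos hTpos 28) h𝒬c
  obtain ⟨q, hq, hbound⟩ := exists_large_image S 𝒬 T (fun q hq => (h𝒬 q hq).1)
    (fun n hn => ⟨(hS n hn).1, (hS n hn).2.1⟩) hne
  refine ⟨q, hq, ?_⟩
  obtain ⟨hqp, hq1, hq2⟩ := h𝒬 q hq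
  haveI : Fact q.Prime := ⟨hqp⟩
  set I := S.image (fun n : ℕ => (n : ZMod q)) with hI
  -- the image is large
  have hIlarge : T ^ 27 ≤ 2 * I.card := by
    by_contra hlt
    push Not at hlt
    set s := S.card
    set g := 𝒬.card
    have hgpos : 0 < g := lt_of_lt_of_le (pow_pos hTpos 28) h𝒬c
    have h1 : 2 * (s * g) ≤ 2 * I.card * (g + s * T) := by
      calc 2 * (s * g) ≤ 2 * (I.card * (g + s * T)) := Nat.mul_le_mul_left _ hbound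
        _ = _ := by ring
    have h2 : 2 * I.card * (g + s * T) < T ^ 27 * (g + s * T) :=
      Nat.mul_lt_mul_of_pos_right hlt (by positivity)
    have h3 : T ^ 27 * (g + s * T) = T ^ 27 * g + s * T ^ 28 := by ring
    have h4 : T ^ 27 * g ≤ T ^ 32 * g :=
      Nat.mul_le_mul_right _ (Nat.pow_le_pow_right hTpos (by norm_num))
    have h5 : T ^ 32 * g ≤ s * g := Nat.mul_le_mul_right _ hSc
    have h6 : s * T ^ 28 ≤ s * g := Nat.mul_le_mul_left _ h𝒬c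
    omega
  -- `q` is odd, so doubling is injective
  have hq2' : q ≠ 2 := by
    intro h
    have : (2:ℕ) ^ 24 ≤ T ^ 24 := Nat.pow_le_pow_left hT 24
    have : (2:ℕ) ^ 24 = 16777216 := by norm_num
    omega
  have h20 : (2 : ZMod q) ≠ 0 := by
    intro h
    have h2 : ((2:ℕ) : ZMod q) = 0 := by exact_mod_cast h
    rw [ZMod.natCast_eq_zero_iff] at h2
    exact hq2' ((Nat.prime_dvd_prime_iff_eq hqp Nat.prime_two).mp h2)
  set J := I.image (fun x : ZMod q => 2 * x) with hJ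
  have hJcard : J.card = I.card := card_image_of_injective _ (mul_right_injective₀ h20)
  set 𝒜 := I ×ˢ J with h𝒜
  set ℬ := I ×ˢ I with hℬ
  have hℬ0 : ∀ b ∈ ℬ, b.1 ≠ 0 := by
    intro b hb
    have hb1 := (mem_product.mp hb).1
    obtain ⟨n, hn, hnb⟩ := mem_image.mp hb1
    rw [← hnb]
    intro h0
    rw [ZMod.natCast_eq_zero_iff] at h0
    exact (hS n hn).2.2 q hq h0
  have hbig : q ^ 3 < 𝒜.card * ℬ.card := by
    have hc : 𝒜.card * ℬ.card = I.card ^ 4 := by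
      rw [h𝒜, hℬ, card_product, card_product, hJcard]; ring
    rw [hc]
    have h1 : q ^ 3 ≤ T ^ 96 := by
      calc q ^ 3 ≤ (T ^ 32) ^ 3 := Nat.pow_le_pow_left hq2 3
        _ = T ^ 96 := by rw [← pow_mul]
    have h2 : (T ^ 27) ^ 4 ≤ (2 * I.card) ^ 4 := Nat.pow_le_pow_left hIlarge 4
    have h3 : (T ^ 27) ^ 4 = T ^ 96 * T ^ 12 := by ring
    have h4 : (2 * I.card) ^ 4 = 16 * I.card ^ 4 := by ring
    have h5 : (2:ℕ) ^ 12 ≤ T ^ 12 := Nat.pow_le_pow_left hT 12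
    have h6 : 0 < T ^ 96 := pow_pos hTpos 96
    have h7 : 17 * T ^ 96 ≤ T ^ 96 * T ^ 12 := by
      rw [mul_comm]
      exact Nat.mul_le_mul_left _ (by omega)
    by_contra hcon
    push Not at hcon
    have h8 : I.card ^ 4 ≤ T ^ 96 := hcon.trans h1
    omega
  intro c hc
  have hc0 : (c : ZMod q) ≠ 0 := by
    intro h0
    rw [ZMod.natCast_eq_zero_iff] at h0
    exact hc h0
  obtain ⟨a, ha, b, hb, hab⟩ := dot_cover 𝒜 ℬ hℬ0 (c : ZMod q) hc0 hbig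
  obtain ⟨ha1, ha2⟩ := mem_product.mp ha
  obtain ⟨hb1, hb2⟩ := mem_product.mp hb
  obtain ⟨a₁, ha₁, ea₁⟩ := mem_image.mp ha1
  obtain ⟨x, hx, ex⟩ := mem_image.mp ha2
  obtain ⟨a₂, ha₂, ea₂⟩ := mem_image.mp hx
  obtain ⟨b₁, hb₁, eb₁⟩ := mem_image.mp hb1
  obtain ⟨b₂, hb₂, eb₂⟩ := mem_image.mp hb2
  refine ⟨a₁, ha₁, b₁, hb₁, a₂, ha₂, b₂, hb₂, ?_⟩
  rw [← hab, ← ea₁, ← eb₁, ← eb₂, ← ex, ← ea₂]
  push_cast
  ring

end Vale.Agent.P012
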