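import Vale.Agent.Lib.P012.Level
import Vale.Agent.Lib.P012.Chain
import Mathlib.NumberTheory.Chebyshev
import Mathlib.NumberTheory.PrimeCounting
import Mathlib.Data.Nat.Choose.Bounds
import Mathlib.Analysis.SpecialFunctions.Log.Deriv
import Mathlib.Analysis.SpecialFunctions.Log.Basic
import Mathlib.Analysis.Complex.ExponentialBounds
import Mathlib.NumberTheory.Harmonic.Bounds

/-!
Prime counting inputs, the pool of primes, products of exactly `j` primes of the pool.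
-/

namespace Vale.Agent.P012

open Finset

/-- Chebyshev input for the family of moduli. -/
theorem two_mul_pow_le_primeCounting (T : ℕ) (hT : 6 ≤ T) :
    2 * T ^ 28 ≤ Nat.primeCounting (T ^ 32) := by
  have hpi := Chebyshev.pi_ge (T ^ 32)
  have ht : (6:ℝ) ≤ (T:ℝ) := by exact_mod_cast hT
  set t : ℝ := (T:ℝ) with ht'
  have htpos : 0 < t := by linarith
  have hcast : ((T ^ 32 : ℕ) : ℝ) = t ^ 32 := by push_cast; rfl
  rw [hcast] at hpi
  set L := Real.log t with hL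
  have hLpos : 0 < L := Real.log_pos (by linarith)
  have hLle : L ≤ t := (Real.log_le_sub_one_of_pos htpos).trans (by linarith)
  have hlogn : Real.log (t ^ 32) = 32 * L := by
    rw [Real.log_pow]; norm_num [hL]
  have hlog1 : Real.log (t ^ 32 + 1) ≤ Real.log 2 + 32 * L := by
    have h1 : t ^ 32 + 1 ≤ 2 * t ^ 32 := by
      have : 1 ≤ t ^ 32 := one_le_pow₀ (by linarith)
      linarith
    calc Real.log (t ^ 32 + 1) ≤ Real.log (2 * t ^ 32) :=
          Real.log_le_log (by positivity) h1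
      _ = Real.log 2 + 32 * L := by
          rw [Real.log_mul (by norm_num) (by positivity), hlogn]
  have hl2 : (0.69:ℝ) < Real.log 2 := by
    have := Real.log_two_gt_d9; linarith
  have hl2' : Real.log 2 < 0.7 := by
    have := Real.log_two_lt_d9; linarith
  have hgoal : 2 * t ^ 28 ≤ (t ^ 32 * Real.log 2 - Real.log (t ^ 32 + 1)) / Real.log (t ^ 32) := by
    rw [hlogn, le_div_iff₀ (by positivity)]
    have h29 : 0 < t ^ 29 := by positivity
    have e32 : t ^ 32 = t ^ 29 * t ^ 3 := by ring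
    have e29 : t ^ 29 = t ^ 28 * t := by ring
    have h3 : (216:ℝ) ≤ t ^ 3 := by
      have : (6:ℝ) ^ 3 ≤ t ^ 3 := pow_le_pow_left₀ (by norm_num) ht 3
      linarith
    have h4 : t ≤ t ^ 29 := by
      calc t = t ^ 1 := by ring
        _ ≤ t ^ 29 := pow_le_pow_right₀ (by linarith) (by norm_num)
    have h5 : 2 * t ^ 28 * (32 * L) ≤ 64 * t ^ 29 := by
      have h28 : 0 ≤ t ^ 28 := by positivity
      nlinarith [mul_le_mul_of_nonneg_left hLle h28]
    have h6 : 216 * t ^ 29 ≤ t ^ 32 := by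
      rw [e32]; nlinarith
    have h7 : (1:ℝ) ≤ t ^ 29 := one_le_pow₀ (by linarith)
    have h32 : 0 ≤ t ^ 32 := by positivity
    nlinarith [mul_le_mul_of_nonneg_left hl2.le h32]
  have h2 : ((2 * T ^ 28 : ℕ) : ℝ) ≤ (Nat.primeCounting (T ^ 32) : ℝ) := by
    push_cast
    exact hgoal.trans hpi
  exact_mod_cast h2

/-- The family of moduli. -/
def moduli (T : ℕ) : Finset ℕ := (Ioc (T ^ 24) (T ^ 32)).filter Nat.Prime

theorem moduli_card (T : ℕ) (hT : 6 ≤ T) : T ^ 28 ≤ (moduli T).card := by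
  have h1 := two_mul_pow_le_primeCounting T hT
  have h2 : Nat.primesLE (T ^ 32) ⊆ (range (T ^ 24 + 1)) ∪ moduli T := by
    intro p hp
    have hp' := Nat.mem_primesLE.mp hp
    by_cases hle : p ≤ T ^ 24
    · exact mem_union_left _ (mem_range.mpr (by omega))
    · exact mem_union_right _ (mem_filter.mpr ⟨mem_Ioc.mpr ⟨by omega, hp'.1⟩, hp'.2⟩)
  have h3 := (card_le_card h2).trans (card_union_le _ _)
  rw [Nat.primesLE_card_eq_primeCounting, card_range] at h3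
  have h4 : T ^ 24 < T ^ 28 := Nat.pow_lt_pow_right (by omega) (by norm_num)
  omega

/-- `2 ^ I ≥ 3 * I` for `I ≥ 4`. -/
theorem three_mul_le_two_pow (I : ℕ) (hI : 4 ≤ I) : 3 * I ≤ 2 ^ I := by
  induction I, hI using Nat.le_induction with
  | base => norm_num
  | succ n hn ih =>
    rw [pow_succ]; omega

/-- A pool of `2 ^ I` odd primes not exceeding `2 ^ (2 * I)`. -/
theorem exists_pool (I : ℕ) (hI : 4 ≤ I) :
    ∃ pool : Finset ℕ, pool.card = 2 ^ I ∧ ∀ p ∈ pool, p.Prime ∧ p ≠ 2 ∧ p ≤ 2 ^ (2 * I) := by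
  have hpi := Chebyshev.pi_ge (2 ^ (2 * I))
  have hlogn : Real.log (((2 ^ (2 * I) : ℕ) : ℝ)) = (2 * I : ℕ) * Real.log 2 := by
    push_cast
    rw [Real.log_pow]
    push_cast; ring
  have hn1 : Real.log (((2 ^ (2 * I) : ℕ) : ℝ) + 1) ≤ (2 * I + 1 : ℕ) * Real.log 2 := by
    have h1 : ((2 ^ (2 * I) : ℕ) : ℝ) + 1 ≤ ((2 ^ (2 * I + 1) : ℕ) : ℝ) := by
      have : 1 ≤ 2 ^ (2 * I) := Nat.one_le_two_pow
      have h2 : 2 ^ (2 * I) + 1 ≤ 2 ^ (2 * I + 1) := by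
        rw [pow_succ]; omega
      exact_mod_cast h2
    calc _ ≤ Real.log ((2 ^ (2 * I + 1) : ℕ) : ℝ) :=
          Real.log_le_log (by positivity) h1
      _ = _ := by
          push_cast
          rw [Real.log_pow]
          push_cast; ring
  have hl2 : 0 < Real.log 2 := Real.log_pos (by norm_num)
  have hIpos : (0:ℝ) < ((2 * I : ℕ) : ℝ) := by
    have : 0 < 2 * I := by omega
    exact_mod_cast this
  have hkey : (2 ^ I + 1 : ℕ) ≤ Nat.primeCounting (2 ^ (2 * I)) := by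
    have h1 : ((2 ^ I + 1 : ℕ) : ℝ) ≤ (((2 ^ (2 * I) : ℕ) : ℝ) * Real.log 2
        - Real.log (((2 ^ (2 * I) : ℕ) : ℝ) + 1)) / Real.log ((2 ^ (2 * I) : ℕ) : ℝ) := by
      rw [hlogn, le_div_iff₀ (by positivity)]
      have h3I := three_mul_le_two_pow I hI
      have hnat : (2 ^ I + 1) * (2 * I) + (2 * I + 1) ≤ 2 ^ (2 * I) := by
        have e : 2 ^ (2 * I) = 2 ^ I * 2 ^ I := by rw [two_mul, pow_add]
        rw [e]
        have h16 : 16 ≤ 2 ^ I := by
          calc 16 = 2 ^ 4 := by norm_num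
            _ ≤ 2 ^ I := Nat.pow_le_pow_right (by norm_num) hI
        nlinarith
      have hnat' : (((2 ^ I + 1) * (2 * I) + (2 * I + 1) : ℕ) : ℝ) ≤ ((2 ^ (2 * I) : ℕ) : ℝ) := by
        exact_mod_cast hnat
      have hnat2 := mul_le_mul_of_nonneg_right hnat' hl2.le
      have e2 : (((2 ^ I + 1) * (2 * I) + (2 * I + 1) : ℕ) : ℝ) * Real.log 2
          = ((2 ^ I + 1 : ℕ) : ℝ) * (((2 * I : ℕ) : ℝ) * Real.log 2)
            + ((2 * I + 1 : ℕ) : ℝ) * Real.log 2 := by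
        push_cast; ring
      rw [e2] at hnat2
      linarith
    have h2 := h1.trans hpi
    exact_mod_cast h2
  have hsize : 2 ^ I ≤ ((Nat.primesLE (2 ^ (2 * I))).erase 2).card := by
    have h2 := pred_card_le_card_erase (s := Nat.primesLE (2 ^ (2 * I))) (a := 2)
    rw [Nat.primesLE_card_eq_primeCounting] at h2
    omega
  obtain ⟨pool, hsub, hcard⟩ := exists_subset_card_eq hsize
  refine ⟨pool, hcard, fun p hp => ?_⟩
  obtain ⟨h1, h2⟩ := mem_erase.mp (hsub hp)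
  have h3 := Nat.mem_primesLE.mp h2
  exact ⟨h3.2, h1, h3.1⟩

/-- Products of exactly `j` elements of the pool. -/
def prodSet (pool : Finset ℕ) (j : ℕ) : Finset ℕ :=
  (pool.powersetCard j).image (fun s => ∏ p ∈ s, p)

theorem prodSet_card (pool : Finset ℕ) (hp : ∀ p ∈ pool, p.Prime) (j : ℕ) :
    (prodSet pool j).card = pool.card.choose j := by
  rw [prodSet, card_image_of_injOn, card_powersetCard]
  intro s hs t ht hst
  have h1 := (mem_powersetCard.mp (Finset.mem_coe.mp hs)).1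
  have h2 := (mem_powersetCard.mp (Finset.mem_coe.mp ht)).1
  have e1 := Nat.primeFactors_prod (fun p hp' => hp p (h1 hp'))
  have e2 := Nat.primeFactors_prod (fun p hp' => hp p (h2 hp'))
  simp only at hst
  rw [← e1, ← e2, hst]

theorem prodSet_props (pool : Finset ℕ) (hp : ∀ p ∈ pool, p.Prime) (j Y : ℕ)
    (hY : ∀ p ∈ pool, p ≤ Y) {n : ℕ} (hn : n ∈ prodSet pool j) :
    0 < n ∧ n ∣ ∏ p ∈ pool, p ∧ n ≤ Y ^ j ∧ ∀ q : ℕ, q.Prime → q ∉ pool → ¬ q ∣ n := by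
  obtain ⟨s, hs, rfl⟩ := mem_image.mp hn
  obtain ⟨hsub, hcard⟩ := mem_powersetCard.mp hs
  refine ⟨prod_pos (fun p hp' => (hp p (hsub hp')).pos), prod_dvd_prod_of_subset _ _ _ hsub, ?_, ?_⟩
  · calc ∏ p ∈ s, p ≤ Y ^ s.card := prod_le_pow_card _ _ _ (fun p hp' => hY p (hsub hp'))
      _ = Y ^ j := by rw [hcard]
  · intro q hq hqnot hdvd
    obtain ⟨p, hps, hqp⟩ := (hq.prime.dvd_finsetProd_iff _).mp hdvd
    have := (Nat.prime_dvd_prime_iff_eq hq (hp p (hsub hps))).mp hqp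
    exact hqnot (this ▸ hsub hps)

/-- A lower bound for a binomial coefficient. -/
theorem choose_bound (I h : ℕ) (hh : h + 1 ≤ I) :
    2 ^ ((I - h - 1) * 2 ^ h) ≤ (2 ^ I).choose (2 ^ h) := by
  set r := 2 ^ h with hr
  have h1 : (2 ^ I + 1 - r) ^ r ≤ (2 ^ I).descFactorial r := Nat.pow_sub_le_descFactorial _ _
  rw [Nat.descFactorial_eq_factorial_mul_choose] at h1
  have h2 : r.factorial ≤ r ^ r := Nat.factorial_le_pow r
  have h3 : 2 ^ (I - 1) ≤ 2 ^ I + 1 - r := by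
    have e : 2 ^ I = 2 * 2 ^ (I - 1) := by
      rw [← pow_succ']; congr 1; omega
    have hle : r ≤ 2 ^ (I - 1) := Nat.pow_le_pow_right (by norm_num) (by omega)
    omega
  have h4 : (2 ^ (I - 1)) ^ r ≤ (2 ^ I + 1 - r) ^ r := Nat.pow_le_pow_left h3 r
  have h5 : (2 ^ (I - 1)) ^ r ≤ r ^ r * (2 ^ I).choose r :=
    h4.trans (h1.trans (Nat.mul_le_mul_right _ h2))
  have e00 : I - 1 = h + (I - h - 1) := by omega
  have e0 : (I - 1) * r = h * r + (I - h - 1) * r := by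
    rw [← add_mul, ← e00]
  have er : r ^ r = 2 ^ (h * r) := by
    conv_lhs => rw [hr, ← pow_mul]
  have e1 : (2 ^ (I - 1)) ^ r = r ^ r * 2 ^ ((I - h - 1) * r) := by
    rw [er, ← pow_mul, e0, pow_add]
  rw [e1] at h5
  exact Nat.le_of_mul_le_mul_left h5 (pow_pos (by rw [hr]; positivity) r)

/-- The exponent inequality needed at each level. -/
theorem exp_ineq (E : ℕ) (hE : 16 ≤ E) : 64 * E ^ 2 + 384 * E ≤ 2 ^ E := by
  induction E, hE using Nat.le_induction with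
  | base => norm_num
  | succ n hn ih =>
    have h1 : 64 * (n + 1) ^ 2 + 384 * (n + 1) ≤ 2 * (64 * n ^ 2 + 384 * n) := by nlinarith
    calc 64 * (n + 1) ^ 2 + 384 * (n + 1) ≤ 2 * (64 * n ^ 2 + 384 * n) := h1
      _ ≤ 2 * 2 ^ n := Nat.mul_le_mul_left _ ih
      _ = 2 ^ (n + 1) := by rw [pow_succ]; ring

theorem exponent_bound (m r : ℕ) (hm : 1 ≤ m) (hE : 16 ≤ m * 2 ^ r) :
    2 * (m + r + 6) * (2 ^ r * 32) ≤ 2 ^ (m * 2 ^ r) := by
  set g := 2 ^ r with hg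
  set E := m * g with hEdef
  have hgE : g ≤ E := by rw [hEdef]; exact Nat.le_mul_of_pos_left _ (by omega)
  have hr : r + 1 ≤ g := Nat.lt_two_pow_self
  have h1 : (r + 6) * g ≤ (E + 5) * E := Nat.mul_le_mul (by omega) hgE
  have h2 : (m + r + 6) * g = E + (r + 6) * g := by rw [hEdef]; ring
  have h3 := exp_ineq E hE
  calc 2 * (m + r + 6) * (g * 32) = 64 * ((m + r + 6) * g) := by ring
    _ ≤ 64 * (E + (E + 5) * E) := by rw [h2]; exact Nat.mul_le_mul_left _ (by omega)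
    _ = 64 * E ^ 2 + 384 * E := by ring
    _ ≤ 2 ^ E := h3

/-- One level of the chain. -/
theorem level_step (I h : ℕ) (hI : 22 ≤ I) (h5 : 5 ≤ h) (hh : h + 2 ≤ I)
    (pool : Finset ℕ) (hcard : pool.card = 2 ^ I)
    (hpool : ∀ p ∈ pool, p.Prime ∧ p ≠ 2 ∧ p ≤ 2 ^ (2 * I))
    (e R t : ℕ) (he : 1 ≤ e)
    (hchain : Chain (2 ^ e * (∏ p ∈ pool, p) ^ 2 * R) (2 ^ (e + 1) * R) t)
    (hx : 2 ^ (4 * I * 2 ^ h + 2) ≤ 2 ^ (e + 1) * R) (k : ℕ) :
    ∃ R' : ℕ, Chain (2 ^ e * (∏ p ∈ pool, p) ^ 2 * R') (2 ^ (e + 1) * R') (t + 2 * k) ∧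
      R ≤ R' ∧ 2 ^ (24 * ((I - h - 1) * 2 ^ (h - 5)) * k) ≤ R' := by
  classical
  set m := I - h - 1 with hm
  set r := h - 5 with hr
  have hh' : h = r + 5 := by omega
  have hIeq : I = m + r + 6 := by omega
  have hm1 : 1 ≤ m := by omega
  set E := m * 2 ^ r with hE
  have hEge : I - 6 ≤ E := by
    have : r + 1 ≤ 2 ^ r := Nat.lt_two_pow_self
    have h2 : m * (r + 1) ≤ m * 2 ^ r := Nat.mul_le_mul_left _ this
    have h3 : m + r ≤ m * (r + 1) := by nlinarith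
    omega
  have hE16 : 16 ≤ E := by omega
  set T := 2 ^ E with hT
  have hT6 : 6 ≤ T := by
    calc 6 ≤ 2 ^ 16 := by norm_num
      _ ≤ 2 ^ E := Nat.pow_le_pow_right (by norm_num) hE16
  have hT32 : T ^ 32 = 2 ^ (m * 2 ^ h) := by
    rw [hT, ← pow_mul, hh', hE]
    congr 1
    ring
  have h2h : (2:ℕ) ^ h = 2 ^ r * 32 := by rw [hh', pow_add]; norm_num
  have hT24 : 2 ^ (2 * I) ≤ T ^ 24 := by
    rw [hT, ← pow_mul]
    exact Nat.pow_le_pow_right (by norm_num) (by omega)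
  have hexp : 2 * I * 2 ^ h ≤ T := by
    have := exponent_bound m r hm1 hE16
    rw [hT, h2h, hIeq]
    exact this
  set S := prodSet pool (2 ^ h) with hS
  set P := ∏ p ∈ pool, p with hP
  have hpp : ∀ p ∈ pool, p.Prime := fun p hp => (hpool p hp).1
  have hY : ∀ p ∈ pool, p ≤ 2 ^ (2 * I) := fun p hp => (hpool p hp).2.2
  have hprops : ∀ n ∈ S, 0 < n ∧ n ∣ P ∧ n ≤ (2 ^ (2 * I)) ^ (2 ^ h) ∧
      ∀ q : ℕ, q.Prime → q ∉ pool → ¬ q ∣ n :=
    fun n hn => prodSet_props pool hpp (2 ^ h) (2 ^ (2 * I)) hY hn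
  have hXpow : (2 ^ (2 * I)) ^ (2 ^ h) = 2 ^ (2 * I * 2 ^ h) := by rw [← pow_mul]
  have hnotpool : ∀ q ∈ moduli T, q ∉ pool := by
    intro q hq hqp
    obtain ⟨h1, _⟩ := mem_filter.mp hq
    have h2 := hY q hqp
    have h3 := (mem_Ioc.mp h1).1
    omega
  obtain ⟨q, hqmem, hqcov⟩ := level_cover S (moduli T) T (by omega)
    (fun q hq => by
      obtain ⟨h1, h2⟩ := mem_filter.mp hq
      exact ⟨h2, (mem_Ioc.mp h1).1, (mem_Ioc.mp h1).2⟩)
    (moduli_card T hT6)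
    (by
      rw [hS, prodSet_card pool hpp, hcard, hT32]
      exact choose_bound I h (by omega))
    (fun n hn => by
      obtain ⟨h1, _, h3, h4⟩ := hprops n hn
      refine ⟨h1, ?_, fun q hq => h4 q (mem_filter.mp hq).2 (hnotpool q hq)⟩
      rw [hXpow] at h3
      exact h3.trans (Nat.pow_le_pow_right (by norm_num) hexp))
  have hqp : q.Prime := (mem_filter.mp hqmem).2
  have hqgt : T ^ 24 < q := (mem_Ioc.mp (mem_filter.mp hqmem).1).1
  have hq2 : q ≠ 2 := by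
    intro h2
    have : 2 ^ 1 ≤ 2 ^ (2 * I) := Nat.pow_le_pow_right (by norm_num) (by omega)
    omega
  have h2pool : 2 ∉ pool := fun h2 => (hpool 2 h2).2.1 rfl
  have hqW₀ : ¬ q ∣ 2 * P ^ 2 := by
    intro hdvd
    rcases (Nat.Prime.dvd_mul hqp).mp hdvd with h1 | h1
    · exact hq2 ((Nat.prime_dvd_prime_iff_eq hqp Nat.prime_two).mp h1)
    · have h2 := hqp.dvd_of_dvd_pow h1
      obtain ⟨p, hps, hqp'⟩ := (hqp.prime.dvd_finsetProd_iff _).mp h2
      have := (Nat.prime_dvd_prime_iff_eq hqp (hpp p hps)).mp hqp'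
      exact hnotpool q hqmem (this ▸ hps)
  have hW₀ : 2 * P ^ 2 ∣ 2 ^ e * P ^ 2 * R := by
    have : 2 ∣ 2 ^ e := dvd_pow_self 2 (by omega)
    exact (mul_dvd_mul_right this _).trans (dvd_mul_right _ _)
  have hcov : ∀ c : ℕ, ¬ q ∣ c → ∃ d₁ d₂ : ℕ, d₁ ≠ d₂ ∧ d₁ ∣ 2 * P ^ 2 ∧ d₂ ∣ 2 * P ^ 2 ∧
      d₁ + d₂ ≤ 2 ^ (4 * I * 2 ^ h + 2) ∧ ((d₁ + d₂ : ℕ) : ZMod q) = (c : ZMod q) := by
    intro c hc
    obtain ⟨a₁, ha₁, b₁, hb₁, a₂, ha₂, b₂, hb₂, hcong⟩ := hqcov c hc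
    obtain ⟨_, hd1, hle1, hn1⟩ := hprops a₁ ha₁
    obtain ⟨_, hd2, hle2, hn2⟩ := hprops b₁ hb₁
    obtain ⟨_, hd3, hle3, _⟩ := hprops a₂ ha₂
    obtain ⟨_, hd4, hle4, _⟩ := hprops b₂ hb₂
    rw [hXpow] at hle1 hle2 hle3 hle4
    refine ⟨a₁ * b₁, 2 * a₂ * b₂, ?_, ?_, ?_, ?_, hcong⟩
    · intro heq
      have h2 : 2 ∣ a₁ * b₁ := by rw [heq, mul_assoc]; exact dvd_mul_right _ _
      rcases (Nat.Prime.dvd_mul Nat.prime_two).mp h2 with h3 | h3
      · exact hn1 2 Nat.prime_two h2pool h3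
      · exact hn2 2 Nat.prime_two h2pool h3
    · have : a₁ * b₁ ∣ P ^ 2 := by rw [sq]; exact mul_dvd_mul hd1 hd2
      exact this.trans (dvd_mul_left _ _)
    · rw [mul_assoc]
      apply mul_dvd_mul_left
      rw [sq]; exact mul_dvd_mul hd3 hd4
    · set X := 2 ^ (2 * I * 2 ^ h) with hX
      have e1 : a₁ * b₁ ≤ X * X := Nat.mul_le_mul hle1 hle2
      have e2 : a₂ * b₂ ≤ X * X := Nat.mul_le_mul hle3 hle4
      have e3 : 2 ^ (4 * I * 2 ^ h + 2) = 4 * (X * X) := by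
        rw [hX, ← pow_add]
        have : 4 * I * 2 ^ h + 2 = 2 + (2 * I * 2 ^ h + 2 * I * 2 ^ h) := by ring
        rw [this, pow_add]; norm_num
      have e4 : 2 * a₂ * b₂ = 2 * (a₂ * b₂) := by ring
      omega
  have hfinal := chain_iter (V := 2 ^ e * P ^ 2 * R) (W₀ := 2 * P ^ 2)
    (x := 2 ^ (4 * I * 2 ^ h + 2)) (x' := 2 ^ (e + 1) * R) (t := t) hqp hW₀ hqW₀ hx hchain hcov k
  have hRpos : 0 < R := by
    rcases Nat.eq_zero_or_pos R with h0 | h0
    · rw [h0, mul_zero] at hx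
      have : 0 < 2 ^ (4 * I * 2 ^ h + 2) := by positivity
      omega
    · exact h0
  refine ⟨R * q ^ k, ?_, Nat.le_mul_of_pos_right _ (pow_pos hqp.pos k), ?_⟩
  · rw [← mul_assoc, ← mul_assoc]
    exact hfinal
  · have h1 : (T ^ 24) ^ k ≤ q ^ k := Nat.pow_le_pow_left hqgt.le k
    have h2 : (T ^ 24) ^ k = 2 ^ (24 * E * k) := by
      rw [hT, ← pow_mul, ← pow_mul]
      congr 1
      ring
    rw [h2] at h1
    exact h1.trans (Nat.le_mul_of_pos_left _ hRpos)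

/-- The number of terms in the chain. -/
def chainTerms (I : ℕ) : ℕ :=
  6144 * I + 2 * ∑ i ∈ range (I - 6), (512 * I / (I - (5 + i) - 1) + 1)

/-- The inductive construction of the chain. -/
theorem chain_key (I : ℕ) (hI : 22 ≤ I) (pool : Finset ℕ) (hcard : pool.card = 2 ^ I)
    (hpool : ∀ p ∈ pool, p.Prime ∧ p ≠ 2 ∧ p ≤ 2 ^ (2 * I)) (e : ℕ) (he1 : e + 1 = 6144 * I)
    (n : ℕ) (hn : 5 + n ≤ I - 1) : ∃ R : ℕ,
      Chain (2 ^ e * (∏ p ∈ pool, p) ^ 2 * R) (2 ^ (e + 1) * R)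
        (6144 * I + 2 * ∑ i ∈ range n, (512 * I / (I - (5 + i) - 1) + 1)) ∧
      2 ^ (192 * I * 2 ^ (5 + n)) ≤ 2 ^ (e + 1) * R := by
  induction n with
  | zero =>
    refine ⟨1, ?_, ?_⟩
    · have := chain_base e
      refine this.mono ?_ (by simp) (by simp [he1])
      rw [mul_one]
      exact dvd_mul_right _ _
    · rw [he1]
      norm_num
      apply Nat.pow_le_pow_right (by norm_num)
      ring_nf
      omega
  | succ n ih =>
    obtain ⟨R, hR1, hR2⟩ := ih (by omega)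
    obtain ⟨h, hh⟩ : ∃ h, h = 5 + n := ⟨_, rfl⟩
    rw [← hh] at hR2
    have hm : 1 ≤ I - h - 1 := by omega
    obtain ⟨k, hk⟩ : ∃ k, k = 512 * I / (I - h - 1) + 1 := ⟨_, rfl⟩
    have hx : 2 ^ (4 * I * 2 ^ h + 2) ≤ 2 ^ (e + 1) * R := by
      refine le_trans (Nat.pow_le_pow_right (by norm_num) ?_) hR2
      have : 1 ≤ I * 2 ^ h := Nat.mul_pos (by omega) (by positivity)
      nlinarith
    obtain ⟨R', hR'1, hR'2, hR'3⟩ := level_step I h hI (by omega) (by omega) pool hcard hpool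
      e R _ (by omega) hR1 hx k
    refine ⟨R', ?_, ?_⟩
    · rw [sum_range_succ, ← hh, ← hk, mul_add, ← add_assoc]
      exact hR'1
    · have h1 : 512 * I < (I - h - 1) * k := by
        rw [hk]; exact Nat.lt_mul_div_succ _ (by omega)
      have h2 : 192 * I * 2 ^ (5 + (n + 1)) ≤ 24 * ((I - h - 1) * 2 ^ (h - 5)) * k := by
        have e1 : 5 + (n + 1) = h + 1 := by omega
        have e2 : (2:ℕ) ^ h = 2 ^ (h - 5) * 32 := by
          have : h = (h - 5) + 5 := by omega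
          conv_lhs => rw [this, pow_add]
          norm_num
        calc 192 * I * 2 ^ (5 + (n + 1)) = 24 * 2 ^ (h - 5) * (512 * I) := by
              rw [e1, pow_succ, e2]; ring
          _ ≤ 24 * 2 ^ (h - 5) * ((I - h - 1) * k) := Nat.mul_le_mul_left _ h1.le
          _ = 24 * ((I - h - 1) * 2 ^ (h - 5)) * k := by ring
      refine le_trans (Nat.pow_le_pow_right (by norm_num) h2) (hR'3.trans ?_)
      exact Nat.le_mul_of_pos_left _ (by positivity)

/-- The whole chain. -/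
theorem chain_final (I : ℕ) (hI : 22 ≤ I) :
    ∃ P W x : ℕ, 0 < P ∧ P ≤ 2 ^ (2 * I * 2 ^ I) ∧ Chain W x (chainTerms I) ∧
      2 * W = x * P ^ 2 ∧ 2 ^ (96 * I * 2 ^ I) ≤ x := by
  classical
  obtain ⟨pool, hcard, hpool⟩ := exists_pool I (by omega)
  obtain ⟨e, he1⟩ : ∃ e, e + 1 = 6144 * I := ⟨6144 * I - 1, by omega⟩
  have hPpos : 0 < ∏ p ∈ pool, p := prod_pos (fun p hp => (hpool p hp).1.pos)
  have hPle : ∏ p ∈ pool, p ≤ 2 ^ (2 * I * 2 ^ I) := by
    calc ∏ p ∈ pool, p ≤ (2 ^ (2 * I)) ^ pool.card :=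
          prod_le_pow_card _ _ _ (fun p hp => (hpool p hp).2.2)
      _ = 2 ^ (2 * I * 2 ^ I) := by rw [hcard, ← pow_mul]
  obtain ⟨R, hR1, hR2⟩ := chain_key I hI pool hcard hpool e he1 (I - 6) (by omega)
  refine ⟨∏ p ∈ pool, p, 2 ^ e * (∏ p ∈ pool, p) ^ 2 * R, 2 ^ (e + 1) * R, hPpos, hPle,
    hR1, ?_, ?_⟩
  · rw [pow_succ]; ring
  · refine le_trans (Nat.pow_le_pow_right (by norm_num) ?_) hR2
    have e1 : 5 + (I - 6) = I - 1 := by omega
    rw [e1]
    have e2 : (2:ℕ) ^ I = 2 * 2 ^ (I - 1) := by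
      rw [← pow_succ']; congr 1; omega
    rw [e2]
    nlinarith

end Vale.Agent.P012
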